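import Mathlib

/-! Thin triangles among points on the graph of a convex function. -/

namespace Vale.Agent.P036

open Finset

/-- With `tau = b / (a + |b|)` for the increments, the determinant is at most the product of the
two lengths and the increase of `tau`. -/
lemma det_le (a b a' b' : ℝ) (ha : 0 < a) (ha' : 0 < a') (h : a' * b ≤ a * b') :
    a * b' - a' * b ≤ (a + |b|) * (a' + |b'|) * (b' / (a' + |b'|) - b / (a + |b|)) := by
  have hL : 0 < a + |b| := by positivity
  have hL' : 0 < a' + |b'| := by positivity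
  have e : (a + |b|) * (a' + |b'|) * (b' / (a' + |b'|) - b / (a + |b|))
      = b' * (a + |b|) - b * (a' + |b'|) := by
    field_simp
  rw [e]
  rcases abs_cases b with ⟨eb, hb⟩ | ⟨eb, hb⟩ <;> rcases abs_cases b' with ⟨eb', hb'⟩ | ⟨eb', hb'⟩ <;>
    rw [eb, eb'] <;> nlinarith

lemma abs_tau_le (a b : ℝ) (ha : 0 < a) : |b / (a + |b|)| ≤ 1 := by
  have hL : 0 < a + |b| := by positivity
  rw [abs_div, abs_of_pos hL, div_le_one hL]
  linarith

/-- The total variation of a sequence with monotone increments-signs is at most twice the range. -/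
lemma sum_abs_le : ∀ (m : ℕ) (y : ℕ → ℝ), (∀ i ≤ m, 0 ≤ y i ∧ y i ≤ 1) →
    (∀ i j, i ≤ j → j < m → 0 < y (i + 1) - y i → 0 ≤ y (j + 1) - y j) →
    (∑ i ∈ range m, |y (i + 1) - y i|) ≤ 2 - y 0 - y m ∨
      (∑ i ∈ range m, |y (i + 1) - y i|) ≤ y 0 + y m := by
  intro m
  induction m with
  | zero =>
    intro y hy _
    right
    simp only [range_zero, sum_empty]
    linarith [(hy 0 le_rfl).1]
  | succ m ih =>
    intro y hy hs
    right
    by_cases h : 0 ≤ y (m + 1) - y m
    · have hs' : ∀ i j, i ≤ j → j < m → 0 < y (i + 1) - y i → 0 ≤ y (j + 1) - y j :=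
        fun i j hij hj => hs i j hij (by omega)
      have key : ∀ (n : ℕ), n ≤ m →
          (∑ i ∈ range n, |y (i + 1) - y i|) ≤ y 0 + y n := by
        intro n hn
        induction n with
        | zero =>
          simp only [range_zero, sum_empty]
          linarith [(hy 0 (by omega)).1]
        | succ n ihn =>
          by_cases h2 : 0 ≤ y (n + 1) - y n
          · rw [sum_range_succ, abs_of_nonneg h2]
            linarith [ihn (by omega)]
          · have hall : ∀ i ≤ n, y (i + 1) - y i ≤ 0 := by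
              intro i hi
              by_contra hc
              exact h2 (hs i n hi (by omega) (not_le.1 hc))
            have e : (∑ i ∈ range (n + 1), |y (i + 1) - y i|)
                = ∑ i ∈ range (n + 1), (y i - y (i + 1)) :=
              sum_congr rfl fun i hi => by
                have := hall i (by simp at hi; omega)
                rw [abs_of_nonpos this]
                ring
            rw [e, sum_range_sub' y]
            linarith [(hy (n + 1) (by omega)).1]
      rw [sum_range_succ, abs_of_nonneg h]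
      linarith [key m le_rfl]
    · have hall : ∀ i ≤ m, y (i + 1) - y i ≤ 0 := by
        intro i hi
        by_contra hc
        exact h (hs i m hi (by omega) (not_le.1 hc))
      have e : (∑ i ∈ range (m + 1), |y (i + 1) - y i|)
          = ∑ i ∈ range (m + 1), (y i - y (i + 1)) :=
        sum_congr rfl fun i hi => by
          have := hall i (by simp at hi; omega)
          rw [abs_of_nonpos this]
          ring
      rw [e, sum_range_sub' y]
      linarith [(hy (m + 1) le_rfl).1]

/-- Three numbers whose scaled sum is small have small product. -/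
lemma prod_le (u v w s : ℝ) (hu : 0 ≤ u) (hv : 0 ≤ v) (hw : 0 ≤ w) (h : u + v + w ≤ s) :
    u * v * w ≤ s ^ 3 := by
  have hs : 0 ≤ s := by linarith
  have h1 : u ≤ s := by linarith
  have h2 : v ≤ s := by linarith
  have h3 : w ≤ s := by linarith
  calc u * v * w ≤ s * s * s :=
        mul_le_mul (mul_le_mul h1 h2 hv hs) h3 hw (mul_nonneg hs hs)
    _ = s ^ 3 := by ring

/-- Points in the unit square on the graph of a convex sequence contain a thin triangle. -/
lemma chain_thin (N : ℕ) (x y : ℕ → ℝ) (hN : 1 ≤ N)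
    (hx : ∀ i ≤ N + 1, 0 ≤ x i ∧ x i ≤ 1) (hy : ∀ i ≤ N + 1, 0 ≤ y i ∧ y i ≤ 1)
    (hxm : ∀ i ≤ N, x i < x (i + 1))
    (hc : ∀ i < N, (x (i + 2) - x (i + 1)) * (y (i + 1) - y i)
      ≤ (x (i + 1) - x i) * (y (i + 2) - y (i + 1))) :
    ∃ i < N, |(x (i + 1) - x i) * (y (i + 2) - y (i + 1))
      - (x (i + 2) - x (i + 1)) * (y (i + 1) - y i)| ≤ (8 / (N : ℝ)) ^ 3 := by
  set a : ℕ → ℝ := fun i => x (i + 1) - x i with ha
  set b : ℕ → ℝ := fun i => y (i + 1) - y i with hb
  set L : ℕ → ℝ := fun i => a i + |b i| with hL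
  set t : ℕ → ℝ := fun i => b i / L i with ht
  have hapos : ∀ i ≤ N, 0 < a i := fun i hi => sub_pos.2 (hxm i hi)
  have hLpos : ∀ i ≤ N, 0 < L i := fun i hi => by
    have := hapos i hi
    positivity
  have hdet : ∀ i < N, a i * b (i + 1) - a (i + 1) * b i ≤ L i * L (i + 1) * (t (i + 1) - t i) :=
    fun i hi => det_le _ _ _ _ (hapos i (by omega)) (hapos (i + 1) (by omega)) (hc i hi)
  have hstep : ∀ i < N, t i ≤ t (i + 1) := by
    intro i hi
    have h1 := hdet i hi
    have h2 : 0 ≤ a i * b (i + 1) - a (i + 1) * b i := sub_nonneg.2 (hc i hi)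
    nlinarith [mul_pos (hLpos i (by omega)) (hLpos (i + 1) (by omega))]
  have hmono : ∀ i j, i ≤ j → j ≤ N → t i ≤ t j := by
    intro i j hij
    induction j, hij using Nat.le_induction with
    | base => exact fun _ => le_rfl
    | succ j _ ih => exact fun hj => (ih (by omega)).trans (hstep j (by omega))
  have hsigns : ∀ i j, i ≤ j → j < N + 1 → 0 < b i → 0 ≤ b j := by
    intro i j hij hj hbi
    have h1 : 0 < t i := div_pos hbi (hLpos i (by omega))
    have h2 : 0 < t j := h1.trans_le (hmono i j hij (by omega))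
    rcases lt_or_ge (b j) 0 with h | h
    · exact absurd h2 (not_lt.2 (div_nonpos_of_nonpos_of_nonneg h.le (hLpos j (by omega)).le))
    · exact h
  have hsumb : ∑ i ∈ range (N + 1), |b i| ≤ 2 := by
    rcases sum_abs_le (N + 1) y hy hsigns with h | h
    · calc ∑ i ∈ range (N + 1), |b i| ≤ 2 - y 0 - y (N + 1) := h
        _ ≤ 2 := by linarith [(hy 0 (by omega)).1, (hy (N + 1) le_rfl).1]
    · calc ∑ i ∈ range (N + 1), |b i| ≤ y 0 + y (N + 1) := h
        _ ≤ 2 := by linarith [(hy 0 (by omega)).2, (hy (N + 1) le_rfl).2]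
  have hsumL : ∑ i ∈ range (N + 1), L i ≤ 3 := by
    have e : ∑ i ∈ range (N + 1), a i = x (N + 1) - x 0 := sum_range_sub x (N + 1)
    simp only [hL, sum_add_distrib, e]
    linarith [(hx 0 (by omega)).1, (hx (N + 1) le_rfl).2]
  have hL1 : ∑ i ∈ range N, L i ≤ 3 :=
    (sum_le_sum_of_subset_of_nonneg (range_subset_range.2 (by omega))
      fun i hi _ => (hLpos i (by simp at hi; omega)).le).trans hsumL
  have hL2 : ∑ i ∈ range N, L (i + 1) ≤ 3 := by
    rw [sum_range_succ' L N] at hsumL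
    linarith [hLpos 0 (by omega)]
  have hL3 : ∑ i ∈ range N, (t (i + 1) - t i) ≤ 2 := by
    rw [sum_range_sub t N]
    have h1 := abs_le.1 (abs_tau_le (a N) (b N) (hapos N le_rfl))
    have h2 := abs_le.1 (abs_tau_le (a 0) (b 0) (hapos 0 (by omega)))
    simp only [ht, hL]
    linarith
  have hs : ∑ i ∈ range N, (L i + L (i + 1) + (t (i + 1) - t i)) ≤ 8 := by
    rw [sum_add_distrib, sum_add_distrib]
    linarith
  obtain ⟨i, hi, hmin⟩ := exists_le_of_sum_le
    (s := range N) (f := fun i => L i + L (i + 1) + (t (i + 1) - t i))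
    (g := fun _ => (8 : ℝ) / N) ⟨0, by simp; omega⟩
    (by
      rw [sum_const, card_range, nsmul_eq_mul, mul_div_cancel₀ _ (by positivity)]
      exact hs)
  have hiN : i < N := by simpa using hi
  refine ⟨i, hiN, ?_⟩
  rw [abs_of_nonneg (sub_nonneg.2 (hc i hiN))]
  exact (hdet i hiN).trans (prod_le _ _ _ _ (hLpos i (by omega)).le (hLpos (i + 1) (by omega)).le
    (sub_nonneg.2 (hstep i hiN)) hmin)

/-- A finite set on the graph of a function convex on `[0,1]` contains a thin triangle. -/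
lemma graph_thin (S : Finset ℝ) (g : ℝ → ℝ) (hg : ConvexOn ℝ (Set.Icc 0 1) g)
    (hS : ∀ s ∈ S, 0 ≤ s ∧ s ≤ 1) (hgS : ∀ s ∈ S, 0 ≤ g s ∧ g s ≤ 1) (h3 : 3 ≤ S.card) :
    ∃ u ∈ S, ∃ v ∈ S, ∃ w ∈ S, u < v ∧ v < w ∧
      |(v - u) * (g w - g u) - (g v - g u) * (w - u)| ≤ (24 / (S.card : ℝ)) ^ 3 := by
  obtain ⟨N, hN⟩ : ∃ N, S.card = N + 2 := ⟨S.card - 2, by omega⟩
  set e := S.orderEmbOfFin hN with he
  set x : ℕ → ℝ := fun i => e ⟨min i (N + 1), by omega⟩ with hxdef
  have hmem : ∀ i, x i ∈ S := fun i => orderEmbOfFin_mem S hN _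
  have hxm : ∀ i ≤ N, x i < x (i + 1) := fun i hi =>
    e.strictMono (by simp only [Fin.mk_lt_mk]; omega)
  have hc : ∀ i < N, (x (i + 2) - x (i + 1)) * (g (x (i + 1)) - g (x i))
      ≤ (x (i + 1) - x i) * (g (x (i + 2)) - g (x (i + 1))) := by
    intro i hi
    have h1 := hxm i (by omega)
    have h2 := hxm (i + 1) (by omega)
    have := hg.slope_mono_adjacent (Set.mem_Icc.2 (hS _ (hmem i)))
      (Set.mem_Icc.2 (hS _ (hmem (i + 2)))) h1 h2
    rw [div_le_div_iff₀ (sub_pos.2 h1) (sub_pos.2 h2)] at this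
    linarith
  obtain ⟨i, hi, hb⟩ := chain_thin N x (fun i => g (x i)) (by omega)
    (fun i _ => hS _ (hmem i)) (fun i _ => hgS _ (hmem i)) hxm hc
  refine ⟨x i, hmem i, x (i + 1), hmem _, x (i + 2), hmem _, hxm i (by omega),
    hxm (i + 1) (by omega), ?_⟩
  have hN1 : (1 : ℝ) ≤ N := by exact_mod_cast (by omega : 1 ≤ N)
  calc _ = |(x (i + 1) - x i) * (g (x (i + 2)) - g (x (i + 1)))
        - (x (i + 2) - x (i + 1)) * (g (x (i + 1)) - g (x i))| := by congr 1; ring
    _ ≤ (8 / (N : ℝ)) ^ 3 := hb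
    _ ≤ _ := by
        have hc' : (S.card : ℝ) = N + 2 := by rw [hN]; push_cast; ring
        rw [hc']
        apply pow_le_pow_left₀ (by positivity)
        rw [div_le_div_iff₀ (by positivity) (by positivity)]
        nlinarith

/-- The same for a function that is convex or concave. -/
lemma graph_thin' (S : Finset ℝ) (g : ℝ → ℝ)
    (hg : ConvexOn ℝ (Set.Icc 0 1) g ∨ ConcaveOn ℝ (Set.Icc 0 1) g)
    (hS : ∀ s ∈ S, 0 ≤ s ∧ s ≤ 1) (hgS : ∀ s ∈ S, 0 ≤ g s ∧ g s ≤ 1) (h3 : 3 ≤ S.card) :
    ∃ u ∈ S, ∃ v ∈ S, ∃ w ∈ S, u < v ∧ v < w ∧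
      |(v - u) * (g w - g u) - (g v - g u) * (w - u)| ≤ (24 / (S.card : ℝ)) ^ 3 := by
  rcases hg with h | h
  · exact graph_thin S g h hS hgS h3
  · have hc : ConvexOn ℝ (Set.Icc (0:ℝ) 1) (fun s => 1 - g s) := by
      have h1 : ConvexOn ℝ (Set.Icc (0:ℝ) 1) (-g + fun _ => (1:ℝ)) :=
        h.neg.add (convexOn_const 1 (convex_Icc 0 1))
      have e : (fun s => 1 - g s) = (-g + fun _ => (1:ℝ)) := funext fun s => by
        simp only [Pi.add_apply, Pi.neg_apply]
        ring
      rw [e]
      exact h1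
    obtain ⟨u, hu, v, hv, w, hw, h1, h2, hb⟩ := graph_thin S _ hc hS
      (fun s hs => ⟨by linarith [(hgS s hs).2], by linarith [(hgS s hs).1]⟩) h3
    refine ⟨u, hu, v, hv, w, hw, h1, h2, le_of_eq_of_le ?_ hb⟩
    rw [← abs_neg]
    congr 1
    ring

end Vale.Agent.P036
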